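import Vale.Agent.P183M.IF2
import Vale.Agent.P183M.D2

/-!
Words in root nilpotents.
-/

namespace Vale.Agent.P183WD

open Matrix Vale.Agent.P183M

variable {G : Type} [Group G] {R F0 : Type} [CommRing R] [Field F0] {d : ℕ} {D : Dat G R F0 d}
  {p : ℕ}

lemma ext_vec {M N : Matrix (Fin d) (Fin d) R} (h : ∀ y, M *ᵥ y = N *ᵥ y) : M = N := by
  ext a b
  rw [← mulVec_ee M, ← mulVec_ee N, h]

lemma ro_mul (u v u' v' : Fin d → R) : D.ro u v * D.ro u' v' = D.β v u' • D.ro u v' :=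
  ext_vec fun y => by
    rw [← mulVec_mulVec, D.ro_mulVec, D.ro_mulVec, smul_mulVec, D.ro_mulVec, D.β_smul_right,
      smul_smul, mul_comm]

lemma ro_conj (h : CD p D) (g : G) (u v : Fin d → R) :
    D.ρ g * D.ro u v * D.ρ g⁻¹ = D.ro (D.ρ g *ᵥ u) (D.ρ g *ᵥ v) :=
  ext_vec fun y => by
    rw [← mulVec_mulVec, ← mulVec_mulVec, D.ro_mulVec, D.ro_mulVec, mulVec_smul, h.inv']

lemma ro_smul (r s : R) (u v : Fin d → R) : D.ro (r • u) (s • v) = (r * D.σ s) • D.ro u v :=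
  ext_vec fun y => by
    rw [D.ro_mulVec, smul_mulVec, D.ro_mulVec, D.β_smul_left, smul_smul, smul_smul]
    congr 1
    ring

section
variable (h : CD p D) {a b : Fin d} (ha : a.val < D.m) (hb : b.val < D.m)
include h ha hb

lemma bee : D.β (ee a) (ee b) = 0 := h.β_pos (D.not_mid ha) (h.rev_ne hb ha)

lemma bff : D.β (ee a.rev) (ee b.rev) = 0 :=
  h.β_pos (D.not_mid' ha) (by rw [Fin.rev_rev]; exact (h.rev_ne ha hb).symm)

omit hb in
lemma bef (hab : a ≠ b) : D.β (ee a) (ee b.rev) = 0 :=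
  h.β_pos (D.not_mid ha) fun h0 => hab (Fin.rev_injective h0).symm

omit hb in
lemma bfe (hab : a ≠ b) : D.β (ee a.rev) (ee b) = 0 :=
  h.β_pos (D.not_mid' ha) (by rw [Fin.rev_rev]; exact hab.symm)

omit hb in
lemma ufe : IsUnit (D.β (ee a.rev) (ee a)) := by
  simpa only [Fin.rev_rev] using h.β_unit (D.not_mid' ha)

end

lemma mk_wd (h : CD p D) {a b c y : G} {i k l : Fin d} {v : Fin d → R} (hi : i.val < D.m)
    (hk : k.val < D.m) (hl : l.val < D.m) (hik : i ≠ k) {u u' : R} (hu : IsUnit u)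
    (h1 : D.W3 a b c = u • D.ro (ee i) (ee k)) (h2 : D.W3 c b a = u' • D.ro (ee k) (ee i))
    (nn : D.N0 * D.N0 = 0) (vi : v i = 0) (vj : v k.rev = 0) (bi : D.β (ee i) v = 0)
    (bk : D.β (ee k) v = 0) (v3 : ∃ u : Rˣ, D.Nn y *ᵥ v = (u : R) • ee k.rev)
    (j3 : D.Nn y *ᵥ ee k.rev = 0) (l3 : D.Nn y *ᵥ ee l = 0)
    (q : D.quad → ∃ (y0 : G) (u : R), D.Nn y0 = u • (D.W3 a b c + D.W3 c b a)) :
    Wd D a b c y i k.rev l v := by
  refine ⟨nn, ?_, ?_, ?_, ?_, h.rev_ne hi hk, vi, vj, ?_, ?_, v3,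
    ⟨(hu.mul (h.β_unit (D.not_mid hk))).unit, ?_⟩, ?_, j3, ?_, ?_, l3, q⟩ <;>
  simp only [h1, h2, Matrix.smul_mul, Matrix.mul_smul, ro_mul, smul_mulVec, D.ro_mulVec,
    bee h hi hi, bee h hi hk, bee h hk hi, bee h hk hk, bee h hi hl, bee h hk hl, bi, bk,
    bef h hi hik, zero_smul, smul_zero, smul_smul, IsUnit.unit_spec]

lemma nn_one (h : CD p D) {c : Rˣ} (hc : D.N0 = (c : R) • D.ro (ee D.z) (ee D.z))
    {x : Fin d → R} (hx : D.sing x) {a : Fin d} (ha : x a = 1) :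
    ∃ (g : G) (u : Rˣ), D.Nn g = (u : R) • D.ro x x := by
  obtain ⟨r, g, hg⟩ := h.pts_unit hx (a := a) (by rw [ha]; exact isUnit_one)
  refine ⟨g, (c.isUnit.mul (r.isUnit.mul (r.isUnit.map D.σ))).unit, ?_⟩
  rw [Dat.Nn, hc, Matrix.mul_smul, Matrix.smul_mul, ro_conj h, hg, ro_smul, smul_smul,
    IsUnit.unit_spec]

lemma wd_one (h : CD p D) (hm : 8 ≤ D.m) (hq : ¬ D.quad) {c : Rˣ}
    (hc : D.N0 = (c : R) • D.ro (ee D.z) (ee D.z)) : ∃ a b c y i j l v, Wd D a b c y i j l v := by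
  have hd := h.le_d
  obtain ⟨i, hi'⟩ : ∃ i : Fin d, i.val = 1 := ⟨⟨1, by omega⟩, rfl⟩
  obtain ⟨k, hk'⟩ : ∃ i : Fin d, i.val = 3 := ⟨⟨3, by omega⟩, rfl⟩
  have hz : D.z.val < D.m := by rw [h.z0]; omega
  have hi : i.val < D.m := by omega
  have hk : k.val < D.m := by omega
  have hik : i ≠ k := fun e => by rw [e] at hi'; omega
  have hkz : k ≠ D.z := fun e => by rw [e, h.z0] at hk'; omega
  obtain ⟨a, ua, e1⟩ := nn_one h hc (h.sing_ee i (D.not_mid hi)) (ee_self i)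
  obtain ⟨b, ub, e2⟩ := nn_one h hc (h.sing_add _ _ (h.sing_ee _ (D.not_mid' hi))
    (h.sing_ee _ (D.not_mid' hk)) (bff h hi hk)) (a := i.rev)
    (by rw [Pi.add_apply, ee_self, ee_ne fun e => hik (Fin.rev_injective e), add_zero])
  obtain ⟨c', uc, e3⟩ := nn_one h hc (h.sing_ee k (D.not_mid hk)) (ee_self k)
  obtain ⟨y, uy, e4⟩ := nn_one h hc (h.sing_ee _ (D.not_mid' hk)) (ee_self k.rev)
  refine ⟨a, b, c', y, i, k.rev, D.z, ee k, mk_wd h hi hk hz hik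
    (u := uc * (ub * (ua * (D.β (ee i) (ee i.rev) * D.β (ee k.rev) (ee k)))))
    (u' := ua * (ub * (uc * (D.β (ee k) (ee k.rev) * D.β (ee i.rev) (ee i)))))
    (uc.isUnit.mul (ub.isUnit.mul (ua.isUnit.mul ((h.β_unit (D.not_mid hi)).mul (ufe h hk)))))
    ?_ ?_ ?_ (ee_ne hik) (ee_ne (h.rev_ne hk hk).symm) (bee h hi hk) (bee h hk hk)
    ⟨(uy.isUnit.mul (ufe h hk)).unit, ?_⟩ ?_ ?_ fun h => absurd h hq⟩ <;>
  simp only [Dat.W3, hc, e1, e2, e3, e4, Matrix.smul_mul, Matrix.mul_smul, ro_mul, smul_mulVec,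
    D.ro_mulVec, D.β_add_left, D.β_add_right, bef h hi hik, bef h hk hik.symm, bfe h hi hik,
    bfe h hk hik.symm, bee h hz hz, bff h hk hk, bfe h hk hkz, zero_smul, smul_zero, smul_smul,
    IsUnit.unit_spec, add_zero, zero_add, mul_assoc]

lemma rf_left {a b : Fin d} (h1 : a ≠ a.rev) (h2 : a ≠ b.rev) : rf a b a = b := by
  rw [rf, Equiv.Perm.mul_apply, Equiv.swap_apply_of_ne_of_ne h1 h2, Equiv.swap_apply_left]

lemma rf_fix {a b c : Fin d} (h1 : c ≠ a) (h2 : c ≠ b) (h3 : c ≠ a.rev) (h4 : c ≠ b.rev) :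
    rf a b c = c := by
  rw [rf, Equiv.Perm.mul_apply, Equiv.swap_apply_of_ne_of_ne h3 h4,
    Equiv.swap_apply_of_ne_of_ne h1 h2]

/-- positions outside the first two hyperbolic pairs and the anisotropic part -/
def Ok (D : Dat G R F0 d) (s : Fin d) : Prop := ¬ D.Mid s ∧ 2 ≤ s.val ∧ 2 ≤ s.rev.val

lemma ok_of (h : CD p D) {s : Fin d} (h1 : 2 ≤ s.val) (h2 : s.val < D.m) :
    Ok D s ∧ Ok D s.rev := by
  have := h.le_d
  have h3 : 2 ≤ s.rev.val := by rw [Fin.val_rev]; omega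
  exact ⟨⟨D.not_mid h2, h1, h3⟩, D.not_mid' h2, h3, by rwa [Fin.rev_rev]⟩

lemma nn_two (h : CD p D) (hm : 2 ≤ D.m) (hσ : ∀ r, D.σ r = r) {c : Rˣ} {y : Fin d}
    (hy : y.val = 1) (hc : D.N0 = (c : R) • (D.ro (ee D.z) (ee y) - D.ro (ee y) (ee D.z)))
    {s t : Fin d} (hs : Ok D s) (ht : Ok D t) (h1 : s ≠ t) (h2 : s ≠ t.rev) :
    ∃ (g : G) (u : Rˣ), D.Nn g = (u : R) • (D.ro (ee s) (ee t) - D.ro (ee t) (ee s)) := by
  have hz0 := h.z0
  have hz : D.z.val < D.m := by omega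
  have hy' : y.val < D.m := by omega
  have n1 : ∀ {a x : Fin d}, a.val < 2 → Ok D x → a ≠ x ∧ a ≠ x.rev ∧ x ≠ a.rev :=
    fun {a x} ha hx => ⟨fun e => by have := hx.2.1; rw [← e] at this; omega,
      fun e => by have := hx.2.2; rw [← e] at this; omega,
      fun e => by have := hx.2.2; rw [e, Fin.rev_rev] at this; omega⟩
  have zs := n1 (a := D.z) (by omega) hs
  have zt := n1 (a := D.z) (by omega) ht
  have yt := n1 (a := y) (by omega) ht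
  obtain ⟨n, -, -, hn, -⟩ := h.refl D.z s (D.not_mid hz) hs.1 zs.1 zs.2.1
  obtain ⟨n', -, -, hn', -⟩ := h.refl y t (D.not_mid hy') ht.1 yt.1 yt.2.1
  obtain ⟨u1, e1⟩ := hn' D.z (D.not_mid hz)
  obtain ⟨u2, e2⟩ := hn' y (D.not_mid hy')
  obtain ⟨u3, e3⟩ := hn D.z (D.not_mid hz)
  obtain ⟨u4, e4⟩ := hn t ht.1
  rw [rf_fix (fun e => by rw [e] at hz0; omega) zt.1 (h.rev_ne hz hy') zt.2.1] at e1
  rw [rf_left (h.rev_ne hy' hy') yt.2.1] at e2
  rw [rf_left (h.rev_ne hz hz) zs.2.1] at e3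
  rw [rf_fix zt.1.symm h1.symm zt.2.2 fun e => h2 (by rw [e, Fin.rev_rev])] at e4
  refine ⟨n * n', c * (u1 * u3 * (u2 * u4)), ?_⟩
  rw [Dat.Nn, hc, Matrix.mul_smul, Matrix.smul_mul, Matrix.mul_sub, Matrix.sub_mul, ro_conj h,
    ro_conj h, mul_vec, mul_vec, e1, e2, mulVec_smul, mulVec_smul, e3, e4, smul_smul, smul_smul,
    ro_smul, ro_smul, hσ, hσ, mul_comm (u2 * u4 : R), ← smul_sub, smul_smul]
  rfl

lemma wd_two (h : CD p D) (hm : 8 ≤ D.m) (hσ : ∀ r, D.σ r = r) {c : Rˣ} {y : Fin d}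
    (hy : y.val = 1) (hc : D.N0 = (c : R) • (D.ro (ee D.z) (ee y) - D.ro (ee y) (ee D.z))) :
    ∃ a b c y i j l v, Wd D a b c y i j l v := by
  have hd := h.le_d
  obtain ⟨x, hx⟩ : ∃ x : ℕ → Fin d, ∀ n < 8, (x n).val = n :=
    ⟨fun n => ⟨min n 7, by omega⟩, fun n hn => by simp; omega⟩
  have lt : ∀ n, n < 8 → (x n).val < D.m := fun n hn => by rw [hx n hn]; omega
  have ne : ∀ n k, n < 8 → k < 8 → n ≠ k → x n ≠ x k := fun n k hn hk hnk e =>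
    hnk (by rw [← hx n hn, ← hx k hk, e])
  have ok : ∀ n, n < 8 → 2 ≤ n → Ok D (x n) ∧ Ok D (x n).rev := fun n hn h2 =>
    ok_of h (by rwa [hx n hn]) (lt n hn)
  have b1 : ∀ n k, n < 8 → k < 8 → D.β (ee (x n)) (ee (x k)) = 0 := fun n k hn hk =>
    bee h (lt n hn) (lt k hk)
  have b2 : ∀ n k, n < 8 → k < 8 → D.β (ee (x n).rev) (ee (x k).rev) = 0 := fun n k hn hk =>
    bff h (lt n hn) (lt k hk)
  have b3 : ∀ n k, n < 8 → k < 8 → n ≠ k → D.β (ee (x n)) (ee (x k).rev) = 0 :=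
    fun n k hn hk hnk => bef h (lt n hn) (ne n k hn hk hnk)
  have b4 : ∀ n k, n < 8 → k < 8 → n ≠ k → D.β (ee (x n).rev) (ee (x k)) = 0 :=
    fun n k hn hk hnk => bfe h (lt n hn) (ne n k hn hk hnk)
  have N := fun {s t} => nn_two (s := s) (t := t) h (by omega) hσ hy hc
  have pp : ∀ n k, n < 8 → k < 8 → 2 ≤ n → 2 ≤ k → n ≠ k → ∃ (g : G) (u : Rˣ), D.Nn g =
      (u : R) • (D.ro (ee (x n)) (ee (x k)) - D.ro (ee (x k)) (ee (x n))) :=
    fun n k hn hk hn' hk' hnk => N (ok n hn hn').1 (ok k hk hk').1 (ne n k hn hk hnk)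
      (h.rev_ne (lt n hn) (lt k hk))
  obtain ⟨a, ua, e1⟩ := pp 2 3 (by omega) (by omega) (by omega) (by omega) (by omega)
  obtain ⟨c', uc, e3⟩ := pp 4 5 (by omega) (by omega) (by omega) (by omega) (by omega)
  obtain ⟨y0, u0, e0⟩ := pp 3 5 (by omega) (by omega) (by omega) (by omega) (by omega)
  obtain ⟨b, ub, e2⟩ := N (ok 4 (by omega) (by omega)).2 (ok 2 (by omega) (by omega)).2
    (fun e => ne 4 2 (by omega) (by omega) (by omega) (Fin.rev_injective e))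
    (by rw [Fin.rev_rev]; exact (h.rev_ne (lt 2 (by omega)) (lt 4 (by omega))).symm)
  obtain ⟨y', uy, e4⟩ := N (ok 5 (by omega) (by omega)).2 (ok 6 (by omega) (by omega)).1
    (h.rev_ne (lt 6 (by omega)) (lt 5 (by omega))).symm
    (fun e => ne 5 6 (by omega) (by omega) (by omega) (Fin.rev_injective e))
  have hz : D.z.val < D.m := by rw [h.z0]; omega
  have hy' : y.val < D.m := by omega
  have hu : IsUnit (uc * (ub * (ua * (D.β (ee (x 2)) (ee (x 2).rev)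
      * D.β (ee (x 4).rev) (ee (x 4)))))) := uc.isUnit.mul (ub.isUnit.mul (ua.isUnit.mul
    ((h.β_unit (D.not_mid (lt 2 (by omega)))).mul (ufe h (lt 4 (by omega))))))
  have w1 : D.W3 a b c' = (uc * (ub * (ua * (D.β (ee (x 2)) (ee (x 2).rev)
      * D.β (ee (x 4).rev) (ee (x 4)))))) • D.ro (ee (x 3)) (ee (x 5)) := by
    simp [Dat.W3, e1, e2, e3, Matrix.mul_sub, Matrix.sub_mul, ro_mul, b3, b4, smul_smul,
      mul_assoc]
  have w2 : D.W3 c' b a = (-(uc * (ub * (ua * (D.β (ee (x 2)) (ee (x 2).rev)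
      * D.β (ee (x 4).rev) (ee (x 4))))))) • D.ro (ee (x 5)) (ee (x 3)) := by
    obtain ⟨ε, hε, hβ⟩ := h.eps
    have : D.β (ee (x 2)) (ee (x 2).rev) * D.β (ee (x 4).rev) (ee (x 4))
        = D.β (ee (x 4)) (ee (x 4).rev) * D.β (ee (x 2).rev) (ee (x 2)) := by
      rw [hβ (ee (x 2).rev), hβ (ee (x 4)), hσ, hσ]
      rcases hε with rfl | rfl <;> ring
    rw [this]
    simp [Dat.W3, e1, e2, e3, Matrix.mul_sub, Matrix.sub_mul, ro_mul, b3, b4, smul_smul,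
      mul_left_comm, mul_assoc]
  refine ⟨a, b, c', y', x 3, (x 5).rev, x 2, ee (x 6).rev, mk_wd h (lt 3 (by omega))
    (lt 5 (by omega)) (lt 2 (by omega)) (ne 3 5 (by omega) (by omega) (by omega)) hu w1 w2 ?_
    (ee_ne (h.rev_ne (lt 3 (by omega)) (lt 6 (by omega))))
    (ee_ne fun e => ne 5 6 (by omega) (by omega) (by omega) (Fin.rev_injective e))
    (by simp [b3]) (by simp [b3])
    ⟨(uy.isUnit.mul (h.β_unit (D.not_mid (lt 6 (by omega))))).unit, ?_⟩ ?_ ?_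
    fun _ => ⟨y0, u0 * hu.unit⁻¹, ?_⟩⟩
  · simp [hc, Matrix.mul_sub, Matrix.sub_mul, ro_mul, bee h hz hz, bee h hz hy', bee h hy' hz,
      bee h hy' hy']
  · simp [e4, smul_mulVec, sub_mulVec, D.ro_mulVec, b2, smul_smul]
  · simp [e4, smul_mulVec, sub_mulVec, D.ro_mulVec, b2, b3]
  · simp [e4, smul_mulVec, sub_mulVec, D.ro_mulVec, b1, b4]
  · rw [e0, w1, w2, neg_smul, ← sub_eq_add_neg, ← smul_sub, smul_smul, mul_assoc,
      IsUnit.val_inv_mul, mul_one]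

theorem wd : WD := by
  intro p G _ R F0 _ _ d D h hm
  rcases h.shape with ⟨hq, c, hc⟩ | ⟨hσ, c, y, hy, hc⟩
  · exact wd_one h hm hq hc
  · exact wd_two h hm hσ hy hc

end Vale.Agent.P183WD
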