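import Vale.Agent.P183WD.Dec

/-!
Invariant decompositions at an irreducible node: base group, number of blocks, fixed vectors.
-/

set_option autoImplicit false
set_option linter.all false

namespace Vale.Agent.P183WD

open Vale.Agent.P183NK Vale.Agent.P183NK.FS Vale.Agent.P183A Subgroup
open scoped commutatorElement

variable {p : ℕ} [Fact p.Prime] {V : Type} [AddCommGroup V] [Module (ZMod p) V]

/-- the standing hypotheses -/
structure Ctx (S : FS p V) (Z : S.NR) (H a b : Subgroup S.Eˣ) : Prop where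
  scal : S.Scal Z 1
  gam : b ≤ S.gam Z
  top : EE H b = S.om (S.cent Z 1)
  hairy : Hairy H a b
  le : a ≤ b
  irr : S.Irr Z a
  abs : S.Abs Z (EE H a)

variable [Finite V] {S : FS p V} {Z : S.NR} {D M : Finset S.E} {e f x : S.E}
  {H a a' b : Subgroup S.Eˣ} {g : S.Eˣ}

omit [Finite V] in
theorem cor_le_cor {J : S.NR} (h1 : e * f = f) (h2 : f * e = f) : S.cor J f ≤ S.cor J e := by
  intro x hx
  obtain ⟨h3, h4, h5⟩ := mem_cor.1 hx
  exact mem_cor.2 ⟨h3, by rw [← h4, ← mul_assoc, h1], by rw [← h5, mul_assoc, h2]⟩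

theorem iso_cor_mul {J : S.NR} (hg : g ∈ S.iso (S.cor J e)) (h : e * x = 0) : g.1 * x = x := by
  ext v
  exact iso_cor_fix hg (by rw [← Module.End.mul_apply, h]; rfl)

theorem iso_cor_cj {J : S.NR} (hg : g ∈ S.iso (S.cor J e)) (h : (e * x = e ∧ x * e = e) ∨
    (e * x = 0 ∧ x * e = 0)) : cj g x = x := by
  refine cj_eq_iff.2 (iso_comm hg fun d hd => ?_).symm
  obtain ⟨-, h1, h2⟩ := mem_cor.1 hd
  rcases h with h | h
  · rw [← h1, ← mul_assoc, h.2, h1, ← h2, mul_assoc, h.1]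
  · rw [← h1, ← mul_assoc, h.2, zero_mul, h1, ← h2, mul_assoc, h.1, mul_zero]

theorem Orth.iso_le_kr (h : Orth S Z D) (he : e ∈ D) {J : S.NR} : S.iso (S.cor J e) ≤ kr D := by
  intro g hg f hf
  refine iso_cor_cj hg ?_
  by_cases c : e = f
  · subst c
    exact Or.inl ⟨(h.si e he).idem, (h.si e he).idem⟩
  · exact Or.inr ⟨h.orth e he f hf c, h.orth f hf e he (Ne.symm c)⟩

theorem SI.eq_of_le (he : SI S Z e) (hf : SI S Z f) (h : e * f = f) (hr : rk e ≤ rk f) : f = e := by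
  have h' := he.le_swap hf h
  have h1 : f * (e - f) = 0 := by rw [mul_sub, h', hf.idem, sub_self]
  have h2 : (e - f) * f = 0 := by rw [sub_mul, h, hf.idem, sub_self]
  have h3 : (e - f) * (e - f) = e - f := by rw [mul_sub, h2, sub_zero, sub_mul, he.idem, h']
  have h4 := rk_add hf.idem h3 h1 h2
  rw [add_sub_cancel] at h4
  by_contra c
  have := rk_pos (sub_ne_zero.2 (Ne.symm c))
  omega

theorem comp_app (hi : e * e = e) (hc : g.1 * e = e * g.1) {v : V} (hv : e v = v) :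
    (S.comp g e hi hc).1 v = g.1 v := by
  show g.1 (e v) + (v - e v) = _
  rw [hv, sub_self, add_zero]

/-- coarsening along an invariant partition -/
theorem part (hD : Orth S Z D) {T : Finset S.E} (hT : Inv a T) (N : S.E → Finset S.E)
    (h1 : ∀ v ∈ T, N v ⊆ D) (h2 : ∀ v ∈ T, (N v).Nonempty)
    (h3 : ∀ v ∈ T, ∀ w ∈ T, N v = N w ∨ Disjoint (N v) (N w))
    (h4 : ∀ g ∈ a, ∀ v ∈ T, ∀ x ∈ N v, cj g x ∈ N (cj g v)) [DecidableEq S.E] :
    Orth S Z (T.image fun v => ∑ x ∈ N v, x) ∧ Inv a (T.image fun v => ∑ x ∈ N v, x) := by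
  refine ⟨⟨fun e he => ?_, fun e he => ?_, fun e he f hf c => ?_⟩, fun g hg e he => ?_⟩
  · obtain ⟨v, hv, rfl⟩ := Finset.mem_image.1 he
    exact (hD.mono (h1 v hv)).sum_si
  · obtain ⟨v, hv, rfl⟩ := Finset.mem_image.1 he
    obtain ⟨x, hx⟩ := h2 v hv
    exact (hD.mono (h1 v hv)).sum_ne hx
  · obtain ⟨v, hv, rfl⟩ := Finset.mem_image.1 he
    obtain ⟨w, hw, rfl⟩ := Finset.mem_image.1 hf
    rcases h3 v hv w hw with h | h
    · exact absurd (by rw [h]) c
    · rw [Finset.sum_mul]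
      exact Finset.sum_eq_zero fun x hx =>
        hD.mul_sum_not (h1 w hw) (h1 v hv hx) (Finset.disjoint_left.1 h hx)
  · obtain ⟨v, hv, rfl⟩ := Finset.mem_image.1 he
    refine Finset.mem_image.2 ⟨cj g v, hT g hg v hv, ?_⟩
    rw [map_sum]
    refine (Finset.sum_bij (fun x _ => cj g x) (h4 g hg v hv) (fun _ _ _ _ c => cj_inj g c)
      (fun y hy => ⟨cj g⁻¹ y, ?_, cj_cj_inv _ _⟩) fun _ _ => rfl).symm
    simpa using h4 g⁻¹ (inv_mem hg) _ (hT g hg v hv) y hy

/-- two orthogonal conjugate blocks are swapped by an isometry supported on them -/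
theorem swap (hZ : S.Scal Z 1) (he : SI S Z e) (hf : SI S Z f) (h : e * f = 0) {t : S.Eˣ}
    (ht : t ∈ S.iso (S.cent Z 1)) (htc : cj t e = f) :
    ∃ τ ∈ S.iso (S.cor (S.cent Z 1) (e + f)), cj τ e = f := by
  have h' := he.swap hf h
  have t1 : t.1 * e = f * t.1 := cj_eq_iff.1 htc
  have t2 : t⁻¹.1 * f = e * t⁻¹.1 := cj_eq_iff.1 (cj_symm htc)
  have hs := he.add hf h
  obtain ⟨u, hu⟩ : ∃ u, u = t.1 * e + t⁻¹.1 * f := ⟨_, rfl⟩
  have u1 : (e + f) * u = u := by
    rw [hu, t1, t2, mul_add, ← mul_assoc, ← mul_assoc, add_mul e f f, add_mul e f e, h, h', he.idem,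
      hf.idem, zero_add, add_zero]
  have u2 : u * (e + f) = u := by
    rw [hu, add_mul, mul_assoc, mul_assoc, mul_add, mul_add f, h, h', he.idem, hf.idem, zero_add,
      add_zero]
  have u3 : u * u = e + f := by
    have a1 : t.1 * e * (t.1 * e) = 0 := by
      rw [mul_assoc, t1, ← mul_assoc e, h, zero_mul, mul_zero]
    have a2 : t.1 * e * (t⁻¹.1 * f) = f := by
      rw [t1, mul_assoc, Units.mul_inv_cancel_left, hf.idem]
    have a3 : t⁻¹.1 * f * (t.1 * e) = e := by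
      rw [t2, mul_assoc, Units.inv_mul_cancel_left, he.idem]
    have a4 : t⁻¹.1 * f * (t⁻¹.1 * f) = 0 := by
      rw [mul_assoc, t2, ← mul_assoc f, h', zero_mul, mul_zero]
    rw [hu, add_mul, mul_add, mul_add, a1, a2, a3, a4, zero_add, add_zero, add_comm]
  have u4 : S.st u = u := by
    rw [hu, st_add, st_mul, st_mul, he.symm, hf.symm, iso_st ht, iso_st (inv_mem ht), inv_inv, ← t1,
      ← t2, add_comm]
  have u5 : (u + (1 - (e + f))) * (u + (1 - (e + f))) = 1 := by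
    rw [add_mul, mul_add, mul_add, u3, hs.compl.idem, mul_sub, mul_one, u2, sub_mul, one_mul, u1]
    simp
  have hA : ∀ k ∈ S.iso (S.cent Z 1), k.1 ∈ S.cent Z 1 := fun k hk => iso_mem (one_mem_cent Z) hk
  refine ⟨⟨u + (1 - (e + f)), u + (1 - (e + f)), u5, u5⟩, mem_iso.2 ⟨mem_cor.2 ⟨?_, ?_, ?_⟩, ?_,
    fun v => ?_⟩, cj_eq_iff.2 ?_⟩
  · exact sub_mem (add_mem (hu ▸ add_mem (mul_mem (hA _ ht) he.mem)
      (mul_mem (hA _ (inv_mem ht)) hf.mem)) hs.compl.mem) (one_mem_cent Z)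
  · show (e + f) * (u + (1 - (e + f)) - 1) = u + (1 - (e + f)) - 1
    rw [show u + (1 - (e + f)) - 1 = u - (e + f) by abel, mul_sub, u1, hs.idem]
  · show (u + (1 - (e + f)) - 1) * (e + f) = u + (1 - (e + f)) - 1
    rw [show u + (1 - (e + f)) - 1 = u - (e + f) by abel, sub_mul, u2, hs.idem]
  · show S.st (u + (1 - (e + f))) * _ = 1
    rw [st_add, u4, hs.compl.symm]
    exact u5
  · show S.q (u v + (v - (e + f) v)) = S.q v
    have b1 : (e + f) (u v) = u v := by rw [← Module.End.mul_apply, u1]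
    have b2 : (e + f) (v - (e + f) v) = 0 := by rw [map_sub, idem_app hs.idem, sub_self]
    have b3 : f (t.1 (e v)) = t.1 (e v) := by
      rw [← Module.End.mul_apply f, ← t1, Module.End.mul_apply, idem_app he.idem]
    have b4 : f (t⁻¹.1 (f v)) = 0 := by
      rw [← Module.End.mul_apply t⁻¹.1, t2, ← Module.End.mul_apply, ← mul_assoc, h', zero_mul]; rfl
    have b5 : e (f v) = 0 := by rw [← Module.End.mul_apply, h]; rfl
    rw [S.q_add' (β_idem_orth hs.symm b1 b2), q_idem hs.symm hs.idem v]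
    congr 1
    rw [hu]
    show S.q (t.1 (e v) + t⁻¹.1 (f v)) = S.q (e v + f v)
    rw [S.q_add' (β_idem_orth hf.symm b3 b4), iso_q ht, iso_q (inv_mem ht),
      S.q_add' (β_idem_orth he.symm (idem_app he.idem v) b5)]
  · show (u + (1 - (e + f))) * e = f * (u + (1 - (e + f)))
    have c1 : u * e = t.1 * e := by
      rw [hu, add_mul, mul_assoc, mul_assoc, he.idem, h', mul_zero, add_zero]
    have c2 : f * u = t.1 * e := by
      rw [hu, t1, t2, mul_add, ← mul_assoc, ← mul_assoc, hf.idem, h', zero_mul, add_zero]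
    rw [add_mul, mul_add, c1, c2, sub_mul, mul_sub, add_mul, mul_add, he.idem, hf.idem, h']
    simp

namespace Ctx

variable (c : Ctx S Z H a b)
include c

theorem nomod {y : Subgroup S.Eˣ} (h1 : a ≤ y) (h2 : y ≤ b) : NoMod H y := c.hairy.nomod h1 h2

theorem up (h1 : a ≤ a') (h2 : a' ≤ b) : Ctx S Z H a' b where
  scal := c.scal
  gam := c.gam
  top := c.top
  hairy := c.hairy.up h1
  le := h2
  irr := fun U hU h => c.irr U hU fun g hg => h g (h1 hg)
  abs := fun x hx h => c.abs x hx fun g hg =>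
    h g (EE_mono (c.nomod le_rfl c.le) (c.nomod h1 h2) h1 hg)

theorem om_le : S.om (S.cent Z 1) ≤ b := c.top ▸ EE_le (c.nomod c.le le_rfl)

theorem E_le : EE H a ≤ a := EE_le (c.nomod le_rfl c.le)

theorem E_iso : EE H a ≤ S.iso (S.cent Z 1) :=
  (EE_mono (c.nomod le_rfl c.le) (c.nomod c.le le_rfl) c.le).trans (c.top.le.trans (om_le_iso _))

theorem agam : a ≤ S.gam Z := c.le.trans c.gam

theorem eq_one (hf : SI S Z f) (h0 : f ≠ 0) (h : ∀ g ∈ a, cj g f = f) : f = 1 := by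
  obtain ⟨z, hz, hzz, hU⟩ := c.irr (S.im f) (by
    rintro z hz _ ⟨w, rfl⟩
    exact ⟨z w, by rw [← Module.End.mul_apply, hf.mem.2.2 z hz]; rfl⟩) (by
    rintro g hg _ ⟨w, rfl⟩
    exact ⟨g.1 w, by rw [← cj_app, h g hg]⟩)
  have h1 : z * f = f := by
    ext v
    exact (hU _).1 ⟨v, rfl⟩
  have h2 : f * z = z := by
    ext v
    exact (mem_range_idem hf.idem).1 ((hU _).2 (idem_app hzz v))
  refine hf.eq_one c.scal h0 ?_
  rw [← h1, ← hf.mem.2.2 z hz, h2]
  exact hz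

theorem sum_eq_one (hD : Orth S Z D) (hn : D.Nonempty) (hi : Inv a D) : ∑ f ∈ D, f = 1 :=
  let ⟨_, he⟩ := hn
  c.eq_one hD.sum_si (hD.sum_ne he) fun g hg => cj_sum (hi g hg)

theorem trans (hD : DD S Z a D) (he : e ∈ D) (hf : f ∈ D) : ∃ g ∈ a, cj g e = f := by
  classical
  have h1 := Finset.filter_subset (fun y => ∃ g ∈ a, cj g e = y) D
  have h2 := hD.eq_of_sum h1 (c.sum_eq_one (hD.toOrth.mono h1)
    ⟨e, Finset.mem_filter.2 ⟨he, 1, one_mem _, cj_one e⟩⟩ fun g hg y hy => by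
      obtain ⟨h3, k, hk, rfl⟩ := Finset.mem_filter.1 hy
      exact Finset.mem_filter.2 ⟨hD.inv g hg _ h3, g * k, mul_mem hg hk, cj_mul _ _ _⟩)
  rw [← h2] at hf
  exact (Finset.mem_filter.1 hf).2

theorem rk_eq (hD : DD S Z a D) (he : e ∈ D) (hf : f ∈ D) : rk e = rk f := by
  obtain ⟨g, -, rfl⟩ := c.trans hD he hf
  exact (rk_cj g (hD.si e he).idem).symm

theorem not_le_kr (hD : DD S Z a D) : ¬ EE H a ≤ kr D := fun h =>
  let ⟨e, he⟩ := hD.nonempty
  hD.ne_one he ((hD.si e he).eq_one c.scal (hD.ne e he)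
    (c.abs e (hD.si e he).mem fun g hg => cj_eq_iff.1 (h hg e he)))

theorem base_le (hD : DD S Z a D) : b ⊓ kr D ≤ H := by
  have h1 : a ≤ b ⊓ stab D := le_inf c.le hD.inv
  have h2 := c.nomod h1 inf_le_left
  refine (le_or_EE_le h2 (inf_le_inf_left _ (kr_le D))
    ((Nm.of_le inf_le_left).inf ((nm_kr D).mono inf_le_right))).resolve_right fun h => ?_
  exact c.not_le_kr hD ((EE_mono (c.nomod le_rfl c.le) h2 h1).trans (h.trans inf_le_right))

theorem five (hD : DD S Z a D) : 5 ≤ D.card := by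
  by_contra h
  exact c.not_le_kr hD (le_kr_of_perfect (EE_perfect (c.nomod le_rfl c.le))
    (c.E_le.trans hD.inv) (by omega))

theorem fix {X : Subgroup S.Eˣ} (hX : X ≤ S.iso (S.cent Z 1)) (hn : Nm a X) {v : V} (hv : v ≠ 0)
    (h : ∀ g ∈ X, g.1 v = v) : X = ⊥ := by
  let U : AddSubgroup V :=
    { carrier := {w | ∀ g ∈ X, g.1 w = w}
      add_mem' := fun h1 h2 g hg => by rw [map_add, h1 g hg, h2 g hg]
      zero_mem' := fun g _ => map_zero _
      neg_mem' := fun h1 g hg => by rw [map_neg, h1 g hg] }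
  obtain ⟨z, hz, hzz, hU⟩ := c.irr U (fun z hz w hw g hg => by
    rw [← Module.End.mul_apply, iso_cent_comm (hX hg) hz, Module.End.mul_apply, hw g hg])
    (fun k hk w hw g hg => by
      have := hw _ (hn _ (inv_mem hk) g hg)
      rw [inv_inv, u_mul_app, u_mul_app] at this
      rw [← u_app_inv k (g.1 (k.1 w)), this])
  refine le_bot_iff.1 fun g hg => Units.ext ?_
  have h1 : g.1 * z = z := by
    ext w
    exact (hU _).2 (idem_app hzz w) g hg
  have h2 : g.1 * S.st z = S.st z := by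
    have := congrArg S.st h1
    rw [st_mul, iso_st (hX hg), Units.mul_inv_eq_iff_eq_mul] at this
    rw [iso_cent_comm (hX hg) (c.scal.star z hz), ← this]
  rcases c.scal.idem_spl hz hzz with e | e | e
  · exact absurd (by rw [← (hU v).1 h, e]; rfl) hv
  · rw [e, mul_one] at h1
    exact h1
  · rw [← mul_one g.1, ← e.add, mul_add, h1, h2, e.add]
    rfl

theorem tc (hD : DD S Z a D) (he : e ∈ D) : S.TC (S.cor (S.cent Z 1) e) e := by
  classical
  intro v hv h
  by_contra h0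
  have hs := hD.si e he
  have hX := c.fix (X := S.iso (S.cent Z 1) ⊓ kr D) inf_le_left
    (((nm_gam_iso c.scal).mono c.agam).inf ((nm_kr D).mono hD.inv)) h0 fun g hg => by
      have hc := cj_eq_iff.1 (hg.2 e he)
      rw [← comp_app hs.idem hc hv]
      exact h _ (comp_iso hg.1 hs.mem hs.symm hs.idem hc)
  have h1 : ∀ g ∈ EE H a, cj g e = e → g.1 v = v := fun g hg hc => by
    have hc := cj_eq_iff.1 hc
    have h2 := comp_iso (c.E_iso hg) hs.mem hs.symm hs.idem hc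
    have h3 : S.comp g e hs.idem hc ∈ S.iso (S.cent Z 1) ⊓ kr D :=
      ⟨iso_mono (cor_le _ _) h2, hD.iso_le_kr he h2⟩
    rw [hX, mem_bot] at h3
    rw [← comp_app hs.idem hc hv, h3]
    rfl
  let O := (Set.toFinite {o | ∃ g ∈ EE H a, g.1 v = o}).toFinset
  have hO : ∀ o, o ∈ O ↔ ∃ g ∈ EE H a, g.1 v = o := fun o => Set.Finite.mem_toFinset _
  have h2 : e (∑ o ∈ O, o) = v := by
    rw [map_sum, Finset.sum_eq_single_of_mem v ((hO v).2 ⟨1, one_mem _, rfl⟩), hv]
    intro o ho hne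
    obtain ⟨g, hg, rfl⟩ := (hO o).1 ho
    rw [← hv, ← cj_app, ← Module.End.mul_apply,
      hD.orth e he _ (hD.inv g (c.E_le hg) e he) fun e' => hne (h1 g hg e'.symm)]
    rfl
  have h3 : ∀ k ∈ EE H a, ∀ o ∈ O, k.1 o ∈ O := fun k hk o ho => by
    obtain ⟨g, hg, rfl⟩ := (hO o).1 ho
    exact (hO _).2 ⟨k * g, mul_mem hk hg, rfl⟩
  refine EE_ne_bot (c.nomod le_rfl c.le) (c.fix c.E_iso (nm_EE H a) (v := ∑ o ∈ O, o)
    (fun e' => h0 (by rw [← h2, e', map_zero])) fun k hk => ?_)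
  rw [map_sum]
  exact Finset.sum_bij (fun o _ => k.1 o) (h3 k hk) (fun _ _ _ _ e' => u_inj k e')
    (fun o ho => ⟨k⁻¹.1 o, h3 _ (inv_mem hk) o ho, u_app_inv _ _⟩) fun _ _ => rfl

end Ctx

end Vale.Agent.P183WD
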