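import Vale.Agent.P183WD.Join

/-!
The step `W5D`.
-/

set_option autoImplicit false
set_option linter.all false

namespace Vale.Agent.P183WD

open Vale.Agent.P183NK Vale.Agent.P183NK.FS Vale.Agent.P183A Subgroup Vale.Agent.P183W5

variable {p : ℕ} [Fact p.Prime] {V : Type} [AddCommGroup V] [Module (ZMod p) V]
variable [Finite V] {S : FS p V} {Z : S.NR} {D D' : Finset S.E} {e f x v : S.E}
  {H a a' b : Subgroup S.Eˣ} {g : S.Eˣ}

theorem card_of_fld {K : S.NR} (hK : S.IsFld K e) (he : e ∈ K) (U : AddSubgroup V) (hU : ∀ v ∈ U, e v = v)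
    (hc : ∀ x ∈ K, ∀ y ∈ K, x * y = y * x) (hi : ∀ z ∈ K, ∀ v ∈ U, z v ∈ U) :
    ∃ r, Nat.card U = Nat.card K ^ r := by
  obtain ⟨W, ⟨h1, h2, r, h3⟩, hmax⟩ := (Set.toFinite {W : AddSubgroup V | W ≤ U ∧
    (∀ z ∈ K, ∀ v ∈ W, z v ∈ W) ∧ ∃ r, Nat.card W = Nat.card K ^ r}).exists_maximal
    ⟨⊥, bot_le, fun z _ v hv => by rw [AddSubgroup.mem_bot] at hv ⊢; rw [hv, map_zero], 0, by simp⟩
  refine ⟨r, ?_⟩
  rw [← h3]
  by_contra hne
  obtain ⟨v, hv, hvW⟩ := SetLike.exists_of_lt (lt_of_le_of_ne h1 fun e' => hne (by rw [e']))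
  let φ : W × K →+ V := AddMonoidHom.mk' (fun x => x.1.1 + x.2.1 v) fun x y => by
    simp only [Prod.fst_add, Prod.snd_add, AddSubgroup.coe_add, AddMemClass.coe_add,
      LinearMap.add_apply]
    abel
  have hφ : Function.Injective φ := by
    rw [injective_iff_map_eq_zero]
    rintro ⟨w, z⟩ h
    have h4 : w.1 + z.1 v = 0 := h
    have h5 : z.1 = 0 := by
      by_contra h0
      obtain ⟨y, hy, e'⟩ := hK z.1 z.2 h0
      apply hvW
      rw [← hU v hv, ← e', hc _ z.2 _ hy, Module.End.mul_apply, eq_neg_of_add_eq_zero_right h4]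
      exact h2 y hy _ (neg_mem w.2)
    rw [h5, LinearMap.zero_apply, add_zero] at h4
    exact Prod.ext (Subtype.ext h4) (Subtype.ext h5)
  have h6 : W ≤ φ.range := fun w hw => ⟨(⟨w, hw⟩, 0), by simp [φ]⟩
  have h7 := hmax (y := φ.range) ⟨by
    rintro _ ⟨⟨w, z⟩, rfl⟩
    exact add_mem (h1 w.2) (hi _ z.2 v hv), by
    rintro y hy _ ⟨⟨w, z⟩, rfl⟩
    exact ⟨(⟨y w.1, h2 y hy _ w.2⟩, ⟨y * z.1, mul_mem hy z.2⟩), (map_add y _ _).symm⟩, r + 1, by
    rw [← Nat.card_congr (AddMonoidHom.ofInjective hφ).toEquiv, Nat.card_prod, h3, pow_succ]⟩ h6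
  exact hvW (h7 ⟨(0, ⟨e, he⟩), by simp [φ, hU v hv]⟩)

theorem exists_rank {K : S.NR} (h : S.Scal K e) : ∃ r, S.Rank K e r := by
  rcases h.cases with hf | ⟨η, s⟩
  · refine card_of_fld hf h.mem (S.im e) (fun v hv => (mem_range_idem h.toLoc.idem).1 hv) h.comm ?_
    rintro z hz _ ⟨w, rfl⟩
    exact ⟨z w, by rw [← Module.End.mul_apply, h.comm _ h.mem z hz]; rfl⟩
  · obtain ⟨r, hr⟩ := card_of_fld (K := S.sym K) (e := e) (fun x hx h0 => h.inv_sym hx h0) h.e_sym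
      (S.im η) (by
        rintro _ ⟨w, rfl⟩
        rw [← Module.End.mul_apply, h.left η s.mem]) h.sym_scal.comm (by
        rintro z hz _ ⟨w, rfl⟩
        exact ⟨z w, by rw [← Module.End.mul_apply, h.comm _ s.mem z hz.1]; rfl⟩)
    refine ⟨r, ?_⟩
    have h1 : Nat.card K = Nat.card (S.sym K) ^ 2 := by
      refine (h.card_cases.resolve_left fun hs => s.ne h (h.red η s.mem ?_)).2
      have := s.mul
      rwa [hs η s.mem] at this
    have h2 := rk_add (s.idem h) ((s.star h).idem h) s.mul (s.mul' h)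
    rw [s.add] at h2
    rw [Rank, card_range, h2, pow_add, ← card_range, ← card_range, card_im_st, h1, ← pow_mul,
      two_mul, pow_add, ← hr]
    rfl

theorem cj_mem {J : S.NR} (hg : g ∈ S.iso J) (hx : x ∈ J) : cj g x ∈ J := by
  have : cj g x = (g.1 - 1) * x * (g⁻¹.1 - 1) + (g.1 - 1) * x + x * (g⁻¹.1 - 1) + x := by
    rw [cj_def]; noncomm_ring
  rw [this]
  exact add_mem (add_mem (add_mem (mul_mem (mul_mem (iso_sub hg) hx) (iso_sub (inv_mem hg)))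
    (mul_mem (iso_sub hg) hx)) (mul_mem hx (iso_sub (inv_mem hg)))) hx

/-- a large classical group permutes no family of blocks -/
theorem central {c r : ℕ} (h2 : N2 c) (hB : BAS c) {K : S.NR} (h : S.Scal K e) (hr : S.Rank K e r)
    (hc : c ≤ r) (hD : Orth S Z D) (hi : S.om (S.cent K e) ≤ stab D) (hv : v ∈ D)
    (hvJ : v ∈ S.cent K e) : v = e := by
  obtain ⟨b1, b2, b3, b4⟩ := hB p V S K e r h hr
  have key : v ∈ S.ctr (S.cent K e) e := by
    rcases h2 p V S _ e r b1 (b4 hc) b3 hc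
      (S.cent K e ⊓ NonUnitalSubring.centralizer (D : Set S.E)) inf_le_left (fun y hy =>
        ⟨b1.star y hy.1, fun w hw => by
          rw [← (hD.si w hw).symm, ← st_mul, ← st_mul, hy.2 w hw]⟩) (fun g hg y hy =>
        ⟨cj_mem (om_le_iso _ hg) hy.1, fun w hw => by
          rw [← cj_def, ← cj_cj_inv g w, ← map_mul, ← map_mul, hy.2 _ (hi (inv_mem hg) w hw)]⟩)
      with h1 | h1
    · exact h1 ⟨hvJ, fun w hw => hD.comm hw hv⟩
    · exact ⟨hvJ, hvJ.1, hvJ.2.1, fun y hy => (h1.ge hy).2 v hv⟩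
  rw [b2] at key
  exact (h.sym_idem key (hD.si v hv).symm (hD.si v hv).idem).resolve_left (hD.ne v hv)

theorem Ctx.step {c n m k : ℕ} (h2 : N2 c) (hB : BAS c) (h3 : ISO3) (hr : S.Rank Z 1 n) (hn : c ≤ n)
    (hm : 2 ≤ m) (C : Ctx S Z H a b) (hg : P183NK.Good m (k + 1) a b) :
    ∃ a', a ≤ a' ∧ P183NK.Good m k a' b ∧ ∀ D', DD S Z a' D' → ∀ v ∈ D', ∃ D x s, DD S Z a D ∧ x ∈ D ∧
      s < c ∧ Nat.card (LinearMap.range x) = Nat.card Z ^ s ∧ rk v < rk x := by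
  by_cases h0 : ∃ e D, DD S Z a D ∧ e ∈ D
  swap
  · exact ⟨a, le_rfl, hg.pred, fun D' hD' v hv => absurd ⟨v, D', hD', hv⟩ h0⟩
  obtain ⟨x₀, ⟨D, hD, hx₀⟩, hmax⟩ := Set.exists_max_image {e | ∃ D, DD S Z a D ∧ e ∈ D} rk
    (Set.toFinite _) h0
  have hmax' : ∀ T, DD S Z a T → ∀ e ∈ T, ∀ x ∈ D, rk e ≤ rk x := fun T hT e he x hx =>
    (hmax e ⟨T, hT, he⟩).trans (C.rk_eq hD hx₀ hx).le
  have h1 : b ⊓ stab D < b := lt_of_le_of_ne inf_le_left fun e' => hD.ne_one hx₀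
    (central h2 hB C.scal hr hn hD.toOrth (C.om_le.trans (e'.ge.trans inf_le_right)) hx₀
      (hD.si _ hx₀).mem)
  obtain ⟨a', h4, h5, h6⟩ := hg.raise_not_le hm h1
  refine ⟨a', h4.le, h5, fun D' hD'' v hv => ?_⟩
  have hD' := hD''.mono h4.le
  obtain ⟨x, hx, hxv⟩ := C.refine h3 hD hmax' hD' hv
  have hs := hD.si x hx
  have h7 : v ≠ x := by
    rintro rfl
    have : D' = D := hD.eq_of_sum (fun w hw => by
      obtain ⟨y, hy, e'⟩ := C.refine h3 hD hmax' hD' hw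
      rwa [(hD.si y hy).eq_of_le (hD'.si w hw) e'
        ((C.rk_eq hD hy hx).trans (C.rk_eq hD' hv hw)).le]) hD'.sum
    exact h6 (le_inf h5.lt.le (this ▸ hD''.inv))
  have h8 := C.scal.cut_scal hs.mem hs.symm hs.idem (hD.ne x hx)
  obtain ⟨s, h9⟩ := exists_rank h8
  refine ⟨D, x, s, hD, hx, ?_, ?_, ?_⟩
  · by_contra hc
    refine h7 (central h2 hB h8 h9 (not_lt.1 hc) hD'.toOrth ?_ hv ?_)
    · rw [Scal.cent_cut hs.mem hs.idem]
      exact ((le_inf ((om_mono (cor_le _ _)).trans C.om_le)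
        ((om_le_iso _).trans (hD.iso_le_kr hx))).trans (C.base_le hD)).trans
        (C.hairy.le.trans hD'.inv)
    · rw [Scal.cent_cut hs.mem hs.idem]
      exact mem_cor.2 ⟨(hD'.si v hv).mem, hxv, hs.le_swap (hD'.si v hv) hxv⟩
  · rw [← C.scal.card_cut hs.mem hs.symm hs.idem (hD.ne x hx)]
    exact h9
  · by_contra hc
    exact h7 (hs.eq_of_le (hD'.si v hv) hxv (not_lt.1 hc))

theorem Ctx.iter {c n m k : ℕ} (h2 : N2 c) (hB : BAS c) (h3 : ISO3) (hr : S.Rank Z 1 n) (hn : c ≤ n)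
    (hm : 2 ≤ m) (r : ℕ) : ∀ a, Ctx S Z H a b → P183NK.Good m (k + r) a b →
      (∀ D, DD S Z a D → ∀ e ∈ D, Nat.card (LinearMap.range e) < Nat.card Z ^ r) →
      ∃ a', a ≤ a' ∧ P183NK.Good m k a' b ∧ ∀ D, ¬ DD S Z a' D := by
  induction r with
  | zero =>
    refine fun a _ hg h => ⟨a, le_rfl, hg, fun D hD => ?_⟩
    obtain ⟨e, he⟩ := hD.nonempty
    have h1 := h D hD e he
    rw [pow_zero] at h1
    have h4 : 0 < Nat.card (LinearMap.range e) := Nat.card_pos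
    omega
  | succ r ih =>
    intro a C hg h
    obtain ⟨a', h1, h4, h5⟩ := C.step h2 hB h3 hr hn hm hg
    obtain ⟨a'', h6, h7⟩ := ih a' (C.up h1 h4.lt.le) h4 fun D' hD' v hv => by
      obtain ⟨D, x, s, hD, hx, -, h6, h7⟩ := h5 D' hD' v hv
      have h8 := h D hD x hx
      rw [h6, Nat.pow_lt_pow_iff_right C.scal.two_le_card] at h8
      refine lt_of_lt_of_le ?_ (h6.le.trans
        (Nat.pow_le_pow_right (by have := C.scal.two_le_card; omega) (Nat.le_of_lt_succ h8)))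
      rw [card_range, card_range]
      exact Nat.pow_lt_pow_right (Fact.out : p.Prime).one_lt h7
    exact ⟨a'', h1.trans h6, h7⟩

/-- The step that removes invariant orthogonal decompositions. -/
theorem w5d {c : ℕ} (h2 : N2 c) (hB : BAS c) (h3 : ISO3) : W5D := by
  refine ⟨c, 2, c + 1, fun p _ V _ _ _ S Z n H a b m k hL hn hm hH hg hP => ?_⟩
  have C : Ctx S Z H a b := ⟨hL.scal, hL.gam, hL.top, hH, hg.lt.le, hP.1, fun x hx h => by
    rw [← (hB p V S Z 1 n hL.scal hL.rank).2.1]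
    refine ⟨hx, one_mul _, mul_one _, fun y hy => ?_⟩
    rw [← hP.2.1] at hy
    exact (NonUnitalSubring.closure_le (t := NonUnitalSubring.centralizer {x})).2 (by
      rintro _ ⟨g, hg, rfl⟩ _ rfl
      exact (h g hg).symm) hy x rfl⟩
  obtain ⟨a', h1, h4, h5⟩ := C.step (k := k + c) h2 hB h3 hL.rank hn.le hm hg
  obtain ⟨a'', h6, h7, h8⟩ := Ctx.iter h2 hB h3 hL.rank hn.le hm c a' (C.up h1 h4.lt.le) h4
    fun D' hD' v hv => by
      obtain ⟨D, x, s, -, -, h6, h7, h8⟩ := h5 D' hD' v hv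
      refine lt_of_lt_of_le ?_ (h7.le.trans
        (Nat.pow_le_pow_right (by have := C.scal.two_le_card; omega) h6.le))
      rw [card_range, card_range]
      exact Nat.pow_lt_pow_right (Fact.out : p.Prime).one_lt h8
  refine ⟨a'', h1.trans h6, h7, fun D hD hi => ?_⟩
  by_contra h9
  exact h8 D ⟨⟨fun e he => ⟨hD.mem e he, hD.symm e he, hD.idem e he⟩, hD.ne, hD.orth⟩, hD.sum,
    not_le.1 h9, hi⟩

end Vale.Agent.P183WD
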