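import Vale.Agent.P183CF.CB3
import Vale.Agent.P183W5.Defs
import Vale.Agent.P183NC.Node
import Mathlib.GroupTheory.SpecificGroups.Alternating.KleinFour
import Mathlib.LinearAlgebra.FiniteDimensional.Lemmas

/-!
Orthogonal families of symmetric idempotents: conjugation, sums, ranks.
-/

set_option autoImplicit false
set_option linter.all false

namespace Vale.Agent.P183WD

open Vale.Agent.P183NK Vale.Agent.P183NK.FS Vale.Agent.P183A Subgroup
open scoped commutatorElement

theorem solvable_perm_four : Group.IsSolvable (Equiv.Perm (Fin 4)) := by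
  have h4 : Nat.card (Fin 4) = 4 := by simp
  have hk := alternatingGroup.kleinFour_isKleinFour h4
  have : Group.IsSolvable (alternatingGroup (Fin 4)) := by
    refine ⟨⟨2, ?_⟩⟩
    rw [derivedSeries_succ, derivedSeries_one, ← alternatingGroup.kleinFour_eq_commutator h4,
      eq_bot_iff, commutator_le]
    intro a ha b hb
    rw [mem_bot, commutatorElement_eq_one_iff_mul_comm]
    exact congrArg Subtype.val ((IsKleinFour.isMulCommutative
      (G := alternatingGroup.kleinFour (Fin 4))).is_comm.comm ⟨a, ha⟩ ⟨b, hb⟩)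
  exact Group.isSolvable_of_ker_le_range (alternatingGroup (Fin 4)).subtype Equiv.Perm.sign
    (by rw [range_subtype, ← alternatingGroup_eq_sign_ker])

theorem solvable_perm {α : Type} [Fintype α] (h : Fintype.card α ≤ 4) :
    Group.IsSolvable (Equiv.Perm α) := by
  obtain ⟨ι⟩ : Nonempty (α ↪ Fin 4) := Function.Embedding.nonempty_of_card_le (by simpa using h)
  have := solvable_perm_four
  exact Group.isSolvable_of_isSolvable_injective (Equiv.Perm.viaEmbeddingHom_injective ι)

variable {p : ℕ} [Fact p.Prime] {V : Type} [AddCommGroup V] [Module (ZMod p) V]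

/-- conjugation by a unit -/
def cj (g : (Module.End (ZMod p) V)ˣ) : Module.End (ZMod p) V →+* Module.End (ZMod p) V where
  toFun x := g.1 * x * g⁻¹.1
  map_one' := by simp
  map_mul' x y := by simp [mul_assoc]
  map_zero' := by simp
  map_add' x y := by simp [mul_add, add_mul]

section cj
variable {g h : (Module.End (ZMod p) V)ˣ} {x y : Module.End (ZMod p) V}

theorem cj_def (g : (Module.End (ZMod p) V)ˣ) (x : Module.End (ZMod p) V) :
    cj g x = g.1 * x * g⁻¹.1 := rfl

theorem cj_mul (g h : (Module.End (ZMod p) V)ˣ) (x : Module.End (ZMod p) V) :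
    cj (g * h) x = cj g (cj h x) := by simp [cj_def, mul_assoc]

@[simp] theorem cj_one (x : Module.End (ZMod p) V) : cj 1 x = x := by simp [cj_def]

@[simp] theorem cj_inv_cj (g : (Module.End (ZMod p) V)ˣ) (x : Module.End (ZMod p) V) :
    cj g⁻¹ (cj g x) = x := by rw [← cj_mul]; simp

@[simp] theorem cj_cj_inv (g : (Module.End (ZMod p) V)ˣ) (x : Module.End (ZMod p) V) :
    cj g (cj g⁻¹ x) = x := by rw [← cj_mul]; simp

theorem cj_inj (g : (Module.End (ZMod p) V)ˣ) : Function.Injective (cj g) := fun x y e => by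
  rw [← cj_inv_cj g x, e, cj_inv_cj]

theorem cj_eq_iff : cj g x = y ↔ g.1 * x = y * g.1 := by
  rw [cj_def, Units.mul_inv_eq_iff_eq_mul]

theorem cj_mul_self (g : (Module.End (ZMod p) V)ˣ) (x : Module.End (ZMod p) V) :
    cj g x * g.1 = g.1 * x := (cj_eq_iff.1 rfl).symm

theorem cj_app (g : (Module.End (ZMod p) V)ˣ) (x : Module.End (ZMod p) V) (v : V) :
    cj g x (g.1 v) = g.1 (x v) := by
  rw [← Module.End.mul_apply, cj_mul_self, Module.End.mul_apply]

theorem cj_val (g h : (Module.End (ZMod p) V)ˣ) : cj g h.1 = (g * h * g⁻¹).1 := rfl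

theorem cj_ne_zero (hx : x ≠ 0) : cj g x ≠ 0 := fun e => hx (cj_inj g (by rw [e, map_zero]))

theorem cj_symm (e : cj g x = y) : cj g⁻¹ y = x := by rw [← e, cj_inv_cj]

end cj

/-- the rank over the prime field -/
noncomputable def rk (e : Module.End (ZMod p) V) : ℕ := Module.finrank (ZMod p) (LinearMap.range e)

section rk
variable [Finite V] {e f : Module.End (ZMod p) V}

theorem card_range (e : Module.End (ZMod p) V) : Nat.card (LinearMap.range e) = p ^ rk e :=
  (P183CF.Form.card_sub (LinearMap.range e)).trans (by rw [Nat.card_zmod]; rfl)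

theorem rk_pos (h : e ≠ 0) : 0 < rk e := by
  rw [rk, Nat.pos_iff_ne_zero, Ne, Submodule.finrank_eq_zero, LinearMap.range_eq_bot]
  exact h

theorem rk_add (he : e * e = e) (hf : f * f = f) (h1 : e * f = 0) (h2 : f * e = 0) :
    rk (e + f) = rk e + rk f := by
  have h3 : LinearMap.range (e + f) = LinearMap.range e ⊔ LinearMap.range f := by
    refine le_antisymm ?_ (sup_le ?_ ?_)
    · rintro _ ⟨v, rfl⟩
      exact Submodule.add_mem_sup ⟨v, rfl⟩ ⟨v, rfl⟩
    · rintro _ ⟨v, rfl⟩
      exact ⟨e v, by rw [← Module.End.mul_apply, add_mul, he, h2, add_zero]⟩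
    · rintro _ ⟨v, rfl⟩
      exact ⟨f v, by rw [← Module.End.mul_apply, add_mul, hf, h1, zero_add]⟩
  have h4 : LinearMap.range e ⊓ LinearMap.range f = ⊥ := by
    rw [eq_bot_iff]
    rintro v ⟨h5, w, rfl⟩
    rw [Submodule.mem_bot, ← (mem_range_idem he).1 h5, ← Module.End.mul_apply, h1]
    rfl
  have := Submodule.finrank_sup_add_finrank_inf_eq (LinearMap.range e) (LinearMap.range f)
  rw [h4, finrank_bot, add_zero, ← h3] at this
  exact this

theorem rk_le_of_inj (he : e * e = e) (h : ∀ v, e v = v → f v = 0 → v = 0) : rk e ≤ rk f := by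
  refine LinearMap.finrank_le_finrank_of_injective
    (f := (f.rangeRestrict).comp (LinearMap.range e).subtype) ?_
  rw [← LinearMap.ker_eq_bot, eq_bot_iff]
  intro v hv
  exact Subtype.ext (h v.1 ((mem_range_idem he).1 v.2) (congrArg Subtype.val hv))

theorem rk_cj (g : (Module.End (ZMod p) V)ˣ) (he : e * e = e) : rk (cj g e) = rk e := by
  have key : ∀ (g : (Module.End (ZMod p) V)ˣ) (e : Module.End (ZMod p) V), e * e = e →
      rk e ≤ rk (cj g e) := by
    intro g e he
    refine LinearMap.finrank_le_finrank_of_injective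
      (f := ((cj g e).rangeRestrict.comp g.1).comp (LinearMap.range e).subtype) ?_
    rw [← LinearMap.ker_eq_bot, eq_bot_iff]
    intro v hv
    have h1 : cj g e (g.1 v.1) = 0 := congrArg Subtype.val hv
    rw [cj_app, (mem_range_idem he).1 v.2] at h1
    exact Subtype.ext (u_inj g (h1.trans (map_zero _).symm))
  refine le_antisymm ?_ (key g e he)
  have := key g⁻¹ (cj g e) (by rw [← map_mul, he])
  rwa [cj_inv_cj] at this

end rk

/-- a symmetric idempotent of `A` -/
structure SI (S : FS p V) (Z : S.NR) (e : S.E) : Prop where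
  mem : e ∈ S.cent Z 1
  symm : S.st e = e
  idem : e * e = e

/-- an orthogonal family of nonzero symmetric idempotents -/
structure Orth (S : FS p V) (Z : S.NR) (D : Finset S.E) : Prop where
  si : ∀ e ∈ D, SI S Z e
  ne : ∀ e ∈ D, e ≠ 0
  orth : ∀ e ∈ D, ∀ f ∈ D, e ≠ f → e * f = 0

/-- the family is permuted by `a` -/
def Inv (a : Subgroup (Module.End (ZMod p) V)ˣ) (D : Finset (Module.End (ZMod p) V)) : Prop :=
  ∀ g ∈ a, ∀ e ∈ D, cj g e ∈ D

/-- an invariant decomposition -/
structure DD (S : FS p V) (Z : S.NR) (a : Subgroup S.Eˣ) (D : Finset S.E) : Prop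
    extends Orth S Z D where
  sum : ∑ e ∈ D, e = 1
  two : 2 ≤ D.card
  inv : Inv a D

variable {S : FS p V} {Z : S.NR} {D M : Finset S.E} {e f x : S.E} {a : Subgroup S.Eˣ} {g : S.Eˣ}

theorem SI.zero : SI S Z 0 := ⟨zero_mem _, by simp, by simp⟩

theorem SI.swap (he : SI S Z e) (hf : SI S Z f) (h : e * f = 0) : f * e = 0 := by
  rw [← he.symm, ← hf.symm, ← st_mul, h, st_zero]

theorem SI.le_swap (he : SI S Z e) (hf : SI S Z f) (h : e * f = f) : f * e = f := by
  rw [← he.symm, ← hf.symm, ← st_mul, h]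

theorem SI.add (he : SI S Z e) (hf : SI S Z f) (h : e * f = 0) : SI S Z (e + f) :=
  ⟨add_mem he.mem hf.mem, by rw [st_add, he.symm, hf.symm], by
    rw [add_mul, mul_add, mul_add, he.idem, hf.idem, h, he.swap hf h]; simp⟩

theorem SI.mul (he : SI S Z e) (hf : SI S Z f) (h : e * f = f * e) : SI S Z (e * f) :=
  ⟨mul_mem he.mem hf.mem, by rw [st_mul, he.symm, hf.symm, h], by
    rw [mul_assoc, ← mul_assoc f, ← h, mul_assoc, hf.idem, ← mul_assoc, he.idem]⟩

theorem SI.compl (he : SI S Z e) : SI S Z (1 - e) :=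
  ⟨sub_mem (one_mem_cent Z) he.mem, one_sub_symm he.symm, one_sub_idem he.idem⟩

theorem SI.cj [Finite V] (hZ : S.Scal Z 1) (he : SI S Z e) (hg : g ∈ S.gam Z) : SI S Z (cj g e) :=
  ⟨gam_A hZ hg he.mem, by rw [cj_def, gam_st hZ hg he.mem, he.symm], by rw [← map_mul, he.idem]⟩

theorem SI.eq_one (hZ : S.Scal Z 1) (he : SI S Z e) (h0 : e ≠ 0) (hz : e ∈ Z) : e = 1 :=
  (hZ.sym_idem hz he.symm he.idem).resolve_left h0

theorem Orth.mono (h : Orth S Z D) (hM : M ⊆ D) : Orth S Z M :=
  ⟨fun e he => h.si e (hM he), fun e he => h.ne e (hM he),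
    fun e he f hf => h.orth e (hM he) f (hM hf)⟩

theorem Orth.comm (h : Orth S Z D) (he : e ∈ D) (hf : f ∈ D) : e * f = f * e := by
  by_cases c : e = f
  · rw [c]
  · rw [h.orth e he f hf c, h.orth f hf e he (Ne.symm c)]

theorem Orth.mul_sum_mem (h : Orth S Z D) (he : e ∈ D) : e * ∑ f ∈ D, f = e := by
  rw [Finset.mul_sum, Finset.sum_eq_single_of_mem e he fun f hf c => h.orth e he f hf c.symm,
    (h.si e he).idem]

theorem Orth.mul_sum_not (h : Orth S Z D) (hM : M ⊆ D) (he : e ∈ D) (hn : e ∉ M) :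
    e * ∑ f ∈ M, f = 0 := by
  rw [Finset.mul_sum]
  exact Finset.sum_eq_zero fun f hf => h.orth e he f (hM hf) fun c => hn (c ▸ hf)

theorem Orth.mem_of_mul (h : Orth S Z D) (hM : M ⊆ D) (he : e ∈ D) (hn : e * ∑ f ∈ M, f ≠ 0) :
    e ∈ M := by
  by_contra c
  exact hn (h.mul_sum_not hM he c)

theorem Orth.sum_si (h : Orth S Z D) : SI S Z (∑ f ∈ D, f) :=
  ⟨sum_mem fun e he => (h.si e he).mem, by
    rw [st_sum]; exact Finset.sum_congr rfl fun e he => (h.si e he).symm, by
    rw [Finset.sum_mul]; exact Finset.sum_congr rfl fun e he => h.mul_sum_mem he⟩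

theorem Orth.sum_ne (h : Orth S Z D) (he : e ∈ D) : ∑ f ∈ D, f ≠ 0 := fun c =>
  h.ne e he (by rw [← h.mul_sum_mem he, c, mul_zero])

theorem Orth.eq_of_sum (h : Orth S Z D) (hM : M ⊆ D) (h1 : ∑ f ∈ M, f = 1) : M = D :=
  hM.antisymm fun e he => h.mem_of_mul hM he (by rw [h1, mul_one]; exact h.ne e he)

theorem Orth.rk_sum [Finite V] (h : Orth S Z D) : rk (∑ f ∈ D, f) = ∑ f ∈ D, rk f := by
  classical
  induction D using Finset.induction_on with
  | empty => rw [Finset.sum_empty, Finset.sum_empty, rk, LinearMap.range_zero, finrank_bot]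
  | insert e D he ih =>
    have hD := h.mono (Finset.subset_insert e D)
    have h1 := h.mul_sum_not (Finset.subset_insert e D) (Finset.mem_insert_self e D) he
    have h2 := h.si e (Finset.mem_insert_self e D)
    rw [Finset.sum_insert he, Finset.sum_insert he, ← ih hD,
      rk_add h2.idem hD.sum_si.idem h1 (h2.swap hD.sum_si h1)]

theorem exists_cj_eq (h : ∀ e ∈ D, cj g e ∈ D) (hf : f ∈ D) : ∃ e ∈ D, cj g e = f :=
  let ⟨e, he, h1⟩ := Finset.surj_on_of_inj_on_of_card_le (fun e _ => cj g e) h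
    (fun _ _ _ _ c => cj_inj g c) le_rfl f hf
  ⟨e, he, h1.symm⟩

theorem cj_sum (h : ∀ e ∈ D, cj g e ∈ D) : cj g (∑ f ∈ D, f) = ∑ f ∈ D, f := by
  rw [map_sum]
  exact Finset.sum_bij (fun e _ => cj g e) h (fun _ _ _ _ c => cj_inj g c)
    (fun f hf => let ⟨e, he, h1⟩ := exists_cj_eq h hf; ⟨e, he, h1⟩) fun _ _ => rfl

/-- the stabiliser of a family -/
def stab (D : Finset (Module.End (ZMod p) V)) : Subgroup (Module.End (ZMod p) V)ˣ where
  carrier := {g | ∀ e ∈ D, cj g e ∈ D}
  one_mem' := fun e he => by simpa using he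
  mul_mem' := fun {g h} hg hh e he => by rw [cj_mul]; exact hg _ (hh e he)
  inv_mem' := fun {g} hg e he => by
    obtain ⟨f, hf, rfl⟩ := Finset.surj_on_of_inj_on_of_card_le (fun e _ => cj g e) hg
      (fun _ _ _ _ c => cj_inj g c) le_rfl e he
    simpa using hf

/-- the pointwise stabiliser of a family -/
def kr (D : Finset (Module.End (ZMod p) V)) : Subgroup (Module.End (ZMod p) V)ˣ where
  carrier := {g | ∀ e ∈ D, cj g e = e}
  one_mem' := fun e _ => cj_one e
  mul_mem' := fun {g h} hg hh e he => by rw [cj_mul, hh e he, hg e he]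
  inv_mem' := fun {g} hg e he => cj_symm (hg e he)

theorem nm_kr (D : Finset (Module.End (ZMod p) V)) : Nm (stab D) (kr D) := fun g hg k hk e he => by
  rw [cj_mul, cj_mul, hk _ (inv_mem hg e he), cj_cj_inv]

theorem kr_le (D : Finset (Module.End (ZMod p) V)) : kr D ≤ stab D := fun g hg e he => by
  rw [hg e he]; exact he

theorem DD.mono {a' : Subgroup S.Eˣ} (h : DD S Z a' D) (ha : a ≤ a') : DD S Z a D :=
  ⟨h.toOrth, h.sum, h.two, fun g hg => h.inv g (ha hg)⟩

theorem DD.ne_one (h : DD S Z a D) (he : e ∈ D) : e ≠ 1 := by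
  rintro rfl
  obtain ⟨f, hf, c⟩ := Finset.exists_mem_ne (s := D) h.two 1
  exact h.ne f hf (by rw [← h.orth 1 he f hf c.symm, one_mul])

theorem DD.nonempty (h : DD S Z a D) : D.Nonempty := Finset.card_pos.1 (by have := h.two; omega)

/-- the action on the blocks -/
def act (D : Finset (Module.End (ZMod p) V)) : stab D →* Equiv.Perm D where
  toFun g := ⟨fun e => ⟨cj g.1 e.1, g.2 e.1 e.2⟩, fun e => ⟨cj g.1⁻¹ e.1, inv_mem g.2 e.1 e.2⟩,
    fun e => Subtype.ext (cj_inv_cj _ _), fun e => Subtype.ext (cj_cj_inv _ _)⟩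
  map_one' := Equiv.ext fun e => Subtype.ext (cj_one _)
  map_mul' g h := Equiv.ext fun e => Subtype.ext (cj_mul _ _ _)

theorem le_kr_of_perfect {E : Subgroup S.Eˣ} (hE : E ≤ ⁅E, E⁆) (h : E ≤ stab D) (h4 : D.card ≤ 4) :
    E ≤ kr D := by
  intro g hg e he
  have := solvable_perm (α := D) (by simpa using h4)
  have h1 := perfect_map_eq_one hE ((act D).comp (inclusion h)) ⟨g, hg⟩
  exact congrArg Subtype.val (congrArg (fun σ : Equiv.Perm D => σ ⟨e, he⟩) h1)

end Vale.Agent.P183WD
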