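import Vale.Agent.P183WD.Ctx

/-!
Every invariant decomposition refines one of maximal rank.
-/

set_option autoImplicit false
set_option linter.all false

namespace Vale.Agent.P183WD

open Vale.Agent.P183NK Vale.Agent.P183NK.FS Vale.Agent.P183A Subgroup
open scoped commutatorElement

variable {p : ℕ} [Fact p.Prime] {V : Type} [AddCommGroup V] [Module (ZMod p) V]
variable [Finite V] {S : FS p V} {Z : S.NR} {D D' M U : Finset S.E} {e f x y v w : S.E}
  {H a a' b : Subgroup S.Eˣ} {g : S.Eˣ}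

/-- elements of `H` that fix the blocks and are supported on the blocks in `U` -/
def GU (H : Subgroup (Module.End (ZMod p) V)ˣ) (D U : Finset (Module.End (ZMod p) V)) :
    Subgroup (Module.End (ZMod p) V)ˣ :=
  H ⊓ kr D ⊓ MulAction.stabilizer _ (1 - ∑ u ∈ U, u)

omit [Finite V] in
theorem mem_GU {H : Subgroup (Module.End (ZMod p) V)ˣ} {D U : Finset (Module.End (ZMod p) V)}
    {g : (Module.End (ZMod p) V)ˣ} :
    g ∈ GU H D U ↔ (g ∈ H ∧ g ∈ kr D) ∧ g.1 * (1 - ∑ u ∈ U, u) = 1 - ∑ u ∈ U, u := Iff.rfl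

open Classical in
/-- the blocks that meet `v` -/
noncomputable def Nb (D : Finset (Module.End (ZMod p) V)) (v : Module.End (ZMod p) V) :
    Finset (Module.End (ZMod p) V) := D.filter fun x => x * v ≠ 0

omit [Finite V] in
theorem mem_Nb {D : Finset (Module.End (ZMod p) V)} {v x : Module.End (ZMod p) V} :
    x ∈ Nb D v ↔ x ∈ D ∧ x * v ≠ 0 := by
  classical
  unfold Nb
  exact Finset.mem_filter

omit [Finite V] in
theorem DD.sum_Nb (hD : DD S Z a D) (v : S.E) : (∑ x ∈ Nb D v, x) * v = v := by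
  conv_rhs => rw [← one_mul v, ← hD.sum, Finset.sum_mul]
  rw [Finset.sum_mul]
  exact Finset.sum_subset (fun x hx => (mem_Nb.1 hx).1) fun x hx hn => by
    by_contra c
    exact hn (mem_Nb.2 ⟨hx, c⟩)

omit [Finite V] in
theorem DD.Nb_nonempty (hD : DD S Z a D) (hv : v ≠ 0) : (Nb D v).Nonempty := by
  rw [Finset.nonempty_iff_ne_empty]
  intro c
  have := hD.sum_Nb v
  rw [c, Finset.sum_empty, zero_mul] at this
  exact hv this.symm

omit [Finite V] in
theorem DD.cj_Nb (hD : DD S Z a D) (hg : g ∈ a) (hx : x ∈ Nb D v) : cj g x ∈ Nb D (cj g v) :=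
  mem_Nb.2 ⟨hD.inv g hg x (mem_Nb.1 hx).1, by rw [← map_mul]; exact cj_ne_zero (mem_Nb.1 hx).2⟩

namespace Ctx

variable (c : Ctx S Z H a b) (h3 : ISO3)
include c h3

/-- all blocks are isometric -/
theorem conj (hD : DD S Z a D) (he : e ∈ D) (hf : f ∈ D) :
    ∃ t ∈ S.iso (S.cent Z 1), cj t e = f := by
  classical
  by_contra hn
  let R : S.E → S.E → Prop := fun x y => ∃ t ∈ S.iso (S.cent Z 1), cj t x = y
  have r1 : ∀ x, R x x := fun x => ⟨1, one_mem _, cj_one x⟩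
  have r2 : ∀ {x y}, R x y → R y x := fun ⟨t, ht, h⟩ => ⟨t⁻¹, inv_mem ht, cj_symm h⟩
  have r3 : ∀ {x y z}, R x y → R y z → R x z := fun ⟨t, ht, h⟩ ⟨s, hs, h'⟩ =>
    ⟨s * t, mul_mem hs ht, by rw [cj_mul, h, h']⟩
  have r4 : ∀ x ∈ D, R e x ∨ R f x := by
    intro x hx
    by_contra hx'
    push Not at hx'
    have m : ∀ i, ![e, f, x] i ∈ D := fun i => by fin_cases i <;> assumption
    have nr : ∀ i j, i ≠ j → ¬ R (![e, f, x] i) (![e, f, x] j) := fun i j hij => by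
      fin_cases i <;> fin_cases j <;>
        first | exact absurd rfl hij | exact hn | exact hx'.1 | exact hx'.2 | exact fun h => hn (r2 h) | exact fun h => hx'.1 (r2 h) | exact fun h => hx'.2 (r2 h)
    obtain ⟨i, j, hij, t, ht, -, h, -⟩ := h3 p V S Z c.scal ![e, f, x]
      (fun i => ⟨(hD.si _ (m i)).mem, (hD.si _ (m i)).symm, (hD.si _ (m i)).idem⟩)
      (fun i j hij => hD.orth _ (m i) _ (m j) fun e' => nr i j hij (e' ▸ r1 _))
      (fun i j => by rw [card_range, card_range, c.rk_eq hD (m i) (m j)])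
    exact nr i j hij ⟨t, ht, cj_eq_iff.2 h⟩
  let N : S.E → Finset S.E := fun x => D.filter (R x)
  have n1 : ∀ {x y}, R x y → N x = N y := fun h =>
    Finset.filter_congr fun z _ => ⟨r3 (r2 h), r3 h⟩
  obtain ⟨o1, o2⟩ := part hD.toOrth hD.inv N (fun _ _ => Finset.filter_subset _ _)
    (fun x hx => ⟨x, Finset.mem_filter.2 ⟨hx, r1 x⟩⟩) (fun x _ y _ => by
      by_cases h : R x y
      · exact Or.inl (n1 h)
      · exact Or.inr (Finset.disjoint_left.2 fun z h1 h2 =>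
          h (r3 (Finset.mem_filter.1 h1).2 (r2 (Finset.mem_filter.1 h2).2))))
    (fun g hg x _ y hy => by
      obtain ⟨h1, t, ht, rfl⟩ := Finset.mem_filter.1 hy
      exact Finset.mem_filter.2 ⟨hD.inv g hg _ h1, g * t * g⁻¹,
        nm_gam_iso c.scal g (c.agam hg) t ht, by rw [cj_mul, cj_mul, cj_inv_cj]⟩)
  have o3 := c.five ⟨o1, c.sum_eq_one o1 (hD.nonempty.image _) o2, Finset.one_lt_card.2
    ⟨_, Finset.mem_image_of_mem _ he, _, Finset.mem_image_of_mem _ hf, fun e' => ?_⟩, o2⟩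
  · have o4 : (D.image fun x => ∑ y ∈ N x, y) ⊆ {∑ y ∈ N e, y, ∑ y ∈ N f, y} := by
      intro z hz
      obtain ⟨x, hx, rfl⟩ := Finset.mem_image.1 hz
      rcases r4 x hx with h | h <;> simp [n1 h]
    have := (Finset.card_le_card o4).trans Finset.card_le_two
    omega
  · have h1 := (hD.toOrth.mono (Finset.filter_subset (R e) D)).mul_sum_mem
      (Finset.mem_filter.2 ⟨he, r1 e⟩)
    have h2 := hD.mul_sum_not (Finset.filter_subset (R f) D) he
      fun h => hn (r2 (Finset.mem_filter.1 h).2)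
    exact hD.ne e he (h1.symm.trans ((congrArg (e * ·) e').trans h2))

/-- the isometry group of a block centralises no proper symmetric idempotent of the block -/
theorem prim (hD : DD S Z a D) (hv : v ∈ D) (hf : SI S Z f) (hvf : v * f = f)
    (hc : ∀ g ∈ S.iso (S.cor (S.cent Z 1) v), cj g f = f) : f = 0 ∨ f = v := by
  classical
  by_contra hn
  push Not at hn
  let P : S.E → S.E → Prop := fun v f => v ∈ D ∧ SI S Z f ∧ v * f = f ∧
    ∀ g ∈ S.iso (S.cor (S.cent Z 1) v), cj g f = f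
  have p1 : ∀ {v v' f f'}, P v f → P v' f' → f * f' ≠ 0 → v = v' := by
    intro v v' f f' h h' h0
    by_contra e'
    apply h0
    rw [← (hD.si v h.1).le_swap h.2.1 h.2.2.1, ← h'.2.2.1, mul_assoc, ← mul_assoc v,
      hD.orth v h.1 v' h'.1 e', zero_mul, mul_zero]
  have p2 : ∀ {v f f'}, P v f → P v f' → f * f' = f' * f := by
    intro v f f' h h'
    have h1 : f * f' * (1 - f) = 0 := by
      ext y
      refine c.tc hD h.1 _ (by rw [← Module.End.mul_apply, ← mul_assoc, ← mul_assoc, h.2.2.1])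
        fun g hg => ?_
      have hc := cj_eq_iff.1 (h.2.2.2 g hg)
      have hk := comp_iso (iso_mono (cor_le _ _) hg) h.2.1.mem h.2.1.symm h.2.1.idem hc
      have hk' := iso_mono (cor_le_cor h.2.2.1 ((hD.si v h.1).le_swap h.2.1 h.2.2.1)) hk
      rw [← comp_app h.2.1.idem hc (by
        rw [← Module.End.mul_apply, ← mul_assoc, ← mul_assoc, h.2.1.idem]),
        ← Module.End.mul_apply, ← mul_assoc, ← mul_assoc, cj_eq_iff.1 (h.2.2.2 _ hk'),
        mul_assoc f _ f', cj_eq_iff.1 (h'.2.2.2 _ hk'), ← mul_assoc, mul_assoc _ _ (1 - f),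
        iso_cor_mul hk (by rw [mul_sub, mul_one, h.2.1.idem, sub_self])]
    rw [mul_sub, mul_one, sub_eq_zero] at h1
    have h2 := congrArg S.st h1
    rw [st_mul, st_mul, st_mul, h.2.1.symm, h'.2.1.symm, ← mul_assoc, ← h1] at h2
    exact h2.symm
  have p3 : ∀ {v f f'}, P v f → P v f' → P v (f * f') := fun h h' =>
    ⟨h.1, h.2.1.mul h'.2.1 (p2 h h'), by rw [← mul_assoc, h.2.2.1], fun g hg => by
      rw [map_mul, h.2.2.2 g hg, h'.2.2.2 g hg]⟩
  have p4 : ∀ {v f}, P v f → ∀ g ∈ a, P (cj g v) (cj g f) := by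
    intro v f h g hg
    refine ⟨hD.inv g hg v h.1, h.2.1.cj c.scal (c.agam hg), by rw [← map_mul, h.2.2.1],
      fun k hk => ?_⟩
    have := h.2.2.2 _ (gam_conj_iso c.scal (c.agam (inv_mem hg)) (cor_le _ _) (fun x hx => by
      obtain ⟨h1, h2, h4⟩ := mem_cor.1 hx
      refine mem_cor.2 ⟨gam_A c.scal (c.agam (inv_mem hg)) h1, ?_, ?_⟩
      · rw [← cj_def, ← cj_inv_cj g v, ← map_mul, h2]
      · rw [← cj_def, ← cj_inv_cj g v, ← map_mul, h4]) hk)
    rw [inv_inv, cj_mul, cj_mul] at this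
    rw [← cj_cj_inv g (cj k (cj g f)), this]
  obtain ⟨f₀, ⟨h0, v₀, hP⟩, hmin⟩ := Set.exists_min_image {f | f ≠ 0 ∧ ∃ v, P v f} rk
    (Set.toFinite _) ⟨f, hn.1, v, hv, hf, hvf, hc⟩
  have hne : f₀ ≠ v₀ := by
    rintro rfl
    exact hn.2 ((hD.si v hv).eq_of_le hf hvf
      ((c.rk_eq hD hv hP.1).le.trans (hmin f ⟨hn.1, v, hv, hf, hvf, hc⟩)))
  let O := (Set.toFinite {y | ∃ g ∈ a, cj g f₀ = y}).toFinset
  have hO : ∀ y, y ∈ O ↔ ∃ g ∈ a, cj g f₀ = y := fun y => Set.Finite.mem_toFinset _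
  have o1 : ∀ y ∈ O, y ≠ 0 ∧ rk y = rk f₀ ∧ ∃ v, P v y := fun y hy => by
    obtain ⟨g, hg, rfl⟩ := (hO y).1 hy
    exact ⟨cj_ne_zero h0, rk_cj g hP.2.1.idem, _, p4 hP g hg⟩
  have o2 : Orth S Z O := by
    refine ⟨fun y hy => (o1 y hy).2.2.elim fun _ h => h.2.1, fun y hy => (o1 y hy).1,
      fun x hx y hy hxy => ?_⟩
    obtain ⟨-, x1, v, x2⟩ := o1 x hx
    obtain ⟨-, y1, v', y2⟩ := o1 y hy
    by_contra h1
    obtain rfl := p1 x2 y2 h1
    have h2 := p3 x2 y2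
    have h4 := hmin _ ⟨h1, v, h2⟩
    exact hxy ((x2.2.1.eq_of_le h2.2.1 (by rw [← mul_assoc, x2.2.1.idem]) (x1.le.trans h4)).symm.trans
      (y2.2.1.eq_of_le h2.2.1 (by rw [p2 x2 y2, ← mul_assoc, y2.2.1.idem]) (y1.le.trans h4)))
  have o3 : Inv a O := fun g hg y hy => by
    obtain ⟨k, hk, rfl⟩ := (hO y).1 hy
    exact (hO _).2 ⟨g * k, mul_mem hg hk, cj_mul _ _ _⟩
  have o4 : f₀ ∈ O := (hO _).2 ⟨1, one_mem _, cj_one _⟩
  have o5 := c.sum_eq_one o2 ⟨_, o4⟩ o3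
  obtain ⟨f₁, h1, h2, h4⟩ : ∃ f₁ ∈ O, f₁ ≠ f₀ ∧ v₀ * f₁ ≠ 0 := by
    by_contra h
    push Not at h
    apply hne
    rw [← hP.2.2.1, ← Finset.sum_eq_single_of_mem (f := fun y => v₀ * y) f₀ o4 h, ← Finset.mul_sum,
      o5, mul_one]
  obtain ⟨-, -, v₁, hP1⟩ := o1 f₁ h1
  obtain rfl : v₀ = v₁ := by
    by_contra e'
    apply h4
    rw [← hP1.2.2.1, ← mul_assoc, hD.orth _ hP.1 _ hP1.1 e', zero_mul]
  obtain ⟨t, ht, h5⟩ := c.conj h3 ⟨o2, o5, Finset.one_lt_card.2 ⟨_, h1, _, o4, h2⟩, o3⟩ o4 h1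
  have h6 := o2.orth _ o4 _ h1 h2.symm
  obtain ⟨τ, hτ, h7⟩ := swap c.scal hP.2.1 hP1.2.1 h6 ht h5
  have h8 : v₀ * (f₀ + f₁) = f₀ + f₁ := by rw [mul_add, hP.2.2.1, hP1.2.2.1]
  exact h2 (h7.symm.trans (hP.2.2.2 τ (iso_mono
    (cor_le_cor h8 ((hD.si _ hP.1).le_swap (hP.2.1.add hP1.2.1 h6) h8)) hτ)))

/-- every isometry of a block is induced by an element of `H` supported on two blocks -/
theorem star (hD : DD S Z a D) (hU : U ⊆ D) (hv : v ∈ U) (hw : w ∈ U) (hvw : v ≠ w)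
    (hg : g ∈ S.iso (S.cor (S.cent Z 1) v)) :
    ∃ h ∈ GU H D U, h.1 * v = g.1 * v ∧ ∀ x, v * x = 0 → w * x = 0 → h.1 * x = x := by
  obtain ⟨t, ht, h1⟩ := c.conj h3 hD (hU hv) (hU hw)
  have h2 : t * g⁻¹ * t⁻¹ ∈ S.iso (S.cor (S.cent Z 1) w) :=
    gam_conj_iso c.scal (iso_le_gam c.scal ht) (cor_le _ _) (fun x hx => by
      obtain ⟨h2, h4, h5⟩ := mem_cor.1 hx
      refine mem_cor.2 ⟨gam_A c.scal (iso_le_gam c.scal ht) h2, ?_, ?_⟩
      · rw [← cj_def, ← h1, ← map_mul, h4]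
      · rw [← cj_def, ← h1, ← map_mul, h5]) (inv_mem hg)
  have h4 : g * (t * g⁻¹ * t⁻¹) ∈ kr D :=
    mul_mem (hD.iso_le_kr (hU hv) hg) (hD.iso_le_kr (hU hw) h2)
  have h5 : ∀ x, v * x = 0 → w * x = 0 → (g * (t * g⁻¹ * t⁻¹)).1 * x = x := fun x e1 e2 => by
    rw [Units.val_mul, mul_assoc, iso_cor_mul h2 e2, iso_cor_mul hg e1]
  have h6 : ∀ u ∈ U, u * (1 - ∑ u ∈ U, u) = 0 := fun u hu => by
    rw [mul_sub, (hD.toOrth.mono hU).mul_sum_mem hu, mul_one, sub_self]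
  refine ⟨g * (t * g⁻¹ * t⁻¹), mem_GU.2 ⟨⟨c.base_le hD ⟨c.om_le ?_, h4⟩, h4⟩,
    h5 _ (h6 v hv) (h6 w hw)⟩, ?_, h5⟩
  · have := commutator_mem_commutator (iso_mono (cor_le _ _) hg) ht
    rwa [commutatorElement_def, mul_assoc, mul_assoc, ← mul_assoc t] at this
  · rw [Units.val_mul, mul_assoc, iso_cor_mul h2 (hD.orth _ (hU hw) _ (hU hv) hvw.symm)]

theorem claimA (hD : DD S Z a D) (hU : U ⊆ D) (hc : 3 ≤ U.card) (hf : SI S Z f)
    (hi : ∀ h ∈ GU H D U, cj h f = f) (hv : v ∈ U) : f * v = 0 ∨ f * v = v := by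
  classical
  have hs := hD.si v (hU hv)
  have ex : ∀ w, ∃ u ∈ U, u ≠ v ∧ u ≠ w := fun w => by
    by_contra h
    push Not at h
    have : U ⊆ {v, w} := fun u hu => by
      by_cases e' : u = v
      · simp [e']
      · simp [h u hu e']
    have := (Finset.card_le_card this).trans Finset.card_le_two
    omega
  have h1 : ∀ w ∈ D, w ≠ v → v * f * w = 0 := by
    intro w hw hwv
    obtain ⟨u, hu, h1, h2⟩ := ex w
    ext y
    refine c.tc hD (hU hv) _ (by rw [← Module.End.mul_apply, ← mul_assoc, ← mul_assoc, hs.idem])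
      fun g hg => ?_
    obtain ⟨h, hh, h4, h5⟩ := c.star h3 hD hU hv hu h1.symm hg
    rw [← Module.End.mul_apply, ← mul_assoc, ← mul_assoc, ← h4,
      cj_eq_iff.1 ((mem_GU.1 hh).1.2 v (hU hv)), mul_assoc v _ f, cj_eq_iff.1 (hi h hh),
      ← mul_assoc, mul_assoc _ _ w,
      h5 w (hD.orth _ (hU hv) _ hw hwv.symm) (hD.orth _ (hU hu) _ hw h2)]
  have h2 : v * f = v * f * v := by
    conv_lhs => rw [← mul_one (v * f), ← hD.sum, Finset.mul_sum]
    exact Finset.sum_eq_single_of_mem v (hU hv) h1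
  have h4 : f * v = v * f := by
    have := congrArg S.st h2
    rwa [st_mul, st_mul, st_mul, hs.symm, hf.symm, ← mul_assoc, ← h2] at this
  refine c.prim h3 hD (hU hv) (hf.mul hs h4) (by rw [h4, ← mul_assoc, hs.idem]) fun g hg => ?_
  obtain ⟨u, hu, h5, -⟩ := ex v
  obtain ⟨h, hh, h6, -⟩ := c.star h3 hD hU hv hu h5.symm hg
  rw [cj_eq_iff, h4, ← mul_assoc, ← h6, mul_assoc, ← h4, ← mul_assoc, cj_eq_iff.1 (hi h hh),
    mul_assoc, h6, cj_eq_iff.1 (hD.iso_le_kr (hU hv) hg v (hU hv)), mul_assoc]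

theorem orbit (hD : DD S Z a D) (hD' : DD S Z a D') (hU : U ⊆ D') (hc : 3 ≤ U.card) (hv : v ∈ U)
    (hx : x ∈ Nb D v) (hy : y ∈ Nb D v) : ∃ h ∈ GU H D' U, cj h x = y := by
  classical
  obtain ⟨x1, x2⟩ := mem_Nb.1 hx
  obtain ⟨y1, y2⟩ := mem_Nb.1 hy
  have hM := Finset.filter_subset (fun y => ∃ h ∈ GU H D' U, cj h x = y) D
  have h1 := (hD.toOrth.mono hM).mul_sum_mem
    (Finset.mem_filter.2 ⟨x1, 1, one_mem _, cj_one x⟩)
  rcases c.claimA h3 hD' hU hc (hD.toOrth.mono hM).sum_si (fun h hh => cj_sum fun z hz => by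
    obtain ⟨z1, k, hk, rfl⟩ := Finset.mem_filter.1 hz
    exact Finset.mem_filter.2 ⟨hD.inv h (c.hairy.le (mem_GU.1 hh).1.1) _ z1, h * k, mul_mem hh hk,
      cj_mul _ _ _⟩) hv with h | h
  · exact absurd (by rw [← h1, mul_assoc, h, mul_zero]) x2
  · exact (Finset.mem_filter.1 (hD.mem_of_mul hM y1 fun e' => y2
      (by rw [← h, ← mul_assoc, e', zero_mul]))).2

/-- every invariant decomposition refines one of maximal rank -/
theorem refine (hD : DD S Z a D) (hmax : ∀ T, DD S Z a T → ∀ e ∈ T, ∀ x ∈ D, rk e ≤ rk x)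
    (hD' : DD S Z a D') (hv : v ∈ D') : ∃ x ∈ D, x * v = v := by
  classical
  have k' := c.five hD'
  obtain ⟨o1, o2⟩ := part hD.toOrth hD'.inv (Nb D) (fun _ _ _ hx => (mem_Nb.1 hx).1)
    (fun v hv => hD.Nb_nonempty (hD'.ne v hv)) (fun v hv w hw => by
      have key : ∀ v ∈ D', ∀ w ∈ D', ∀ x ∈ Nb D v, x ∈ Nb D w → Nb D v ⊆ Nb D w := by
        intro v hv w hw x h1 h2 y hy
        obtain ⟨h, hh, rfl⟩ := c.orbit h3 hD hD' (Finset.Subset.refl _) (by omega) hv h1 hy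
        have := hD.cj_Nb (c.hairy.le (mem_GU.1 hh).1.1) h2
        rwa [(mem_GU.1 hh).1.2 w hw] at this
      by_cases e' : Disjoint (Nb D v) (Nb D w)
      · exact Or.inr e'
      · obtain ⟨x, h1, h2⟩ := Finset.not_disjoint_iff.1 e'
        exact Or.inl ((key v hv w hw x h1 h2).antisymm (key w hw v hv x h2 h1)))
    (fun g hg v _ x hx => hD.cj_Nb hg hx)
  have o3 := c.sum_eq_one o1 (hD'.nonempty.image _) o2
  have hN : ∀ v, Nb D v ⊆ D := fun v x hx => (mem_Nb.1 hx).1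
  by_cases h2 : 2 ≤ (D'.image fun v => ∑ x ∈ Nb D v, x).card
  · obtain ⟨x, hx⟩ := hD.Nb_nonempty (hD'.ne v hv)
    have h4 := hD.toOrth.mono (hN v)
    refine ⟨x, hN v hx, ?_⟩
    have h5 := congrArg S.st (h4.mul_sum_mem hx)
    rw [st_mul, h4.sum_si.symm, (h4.si x hx).symm] at h5
    rw [h4.sum_si.eq_of_le (h4.si x hx) h5
      (hmax _ ⟨o1, o3, h2, o2⟩ _ (Finset.mem_image_of_mem _ hv) x (hN v hx)), hD.sum_Nb]
  · exfalso
    obtain ⟨U, hU, hc⟩ := Finset.exists_subset_card_eq (s := D') (n := 3) (by omega)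
    obtain ⟨u, hu⟩ : U.Nonempty := Finset.card_pos.1 (by omega)
    obtain ⟨x, hx⟩ := hD.nonempty
    have h4 : Nb D u = D := hD.eq_of_sum (hN u) (by
      rw [← o3, Finset.sum_eq_single_of_mem _ (Finset.mem_image_of_mem _ (hU hu))]
      intro z hz hne
      exact absurd (Finset.card_le_one.1 (Nat.le_of_lt_succ (not_le.1 h2)) _ hz _
        (Finset.mem_image_of_mem _ (hU hu))) hne)
    have hs := (hD'.toOrth.mono hU).sum_si
    have h5 : rk (1 - ∑ u ∈ U, u) ≤ rk x := rk_le_of_inj hs.compl.idem fun w h5 h6 => by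
      rw [← Module.End.one_apply (R := ZMod p) w, ← hD.sum, LinearMap.sum_apply]
      refine Finset.sum_eq_zero fun y hy => ?_
      obtain ⟨h, hh, rfl⟩ := c.orbit h3 hD hD' hU hc.ge hu (h4.symm ▸ hx) (h4.symm ▸ hy)
      have h7 : h.1 w = w := by rw [← h5, ← Module.End.mul_apply, (mem_GU.1 hh).2]
      rw [← h7, cj_app, h6, map_zero]
    have h6 := rk_add hs.idem hs.compl.idem (by rw [mul_sub, mul_one, hs.idem, sub_self])
      (by rw [sub_mul, one_mul, hs.idem, sub_self])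
    rw [add_sub_cancel, (hD'.toOrth.mono hU).rk_sum] at h6
    have h7 : ∑ u ∈ U, rk u ≤ U.card • rk x :=
      Finset.sum_le_card_nsmul _ _ _ fun u hu => hmax _ hD' u (hU hu) x hx
    have h8 : D.card • rk x ≤ ∑ y ∈ D, rk y :=
      Finset.card_nsmul_le_sum _ _ _ fun y hy => (c.rk_eq hD hx hy).le
    rw [← hD.rk_sum, hD.sum] at h8
    have h9 := rk_pos (hD.ne x hx)
    have := Nat.mul_le_mul_right (rk x) (c.five hD)
    rw [hc, smul_eq_mul] at h7
    rw [smul_eq_mul] at h8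
    omega

end Ctx

end Vale.Agent.P183WD
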